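import Vale.Agent.P281.H167.LC.Iface
import Vale.Agent.P281.H167.RC.MainI
import Vale.Agent.P281.H716.KL.FibI

/-! P281, theorem LC (log canonical pairs): the bridge, the fibre side and the final theorem, as
propositions.  `Δ₀ ≤ Δ` may be `Δ`: one system of sections of `m (K_X + Δ)`, `Δ` log canonical. -/

open scoped Manifold ContDiff Topology ComplexOrder
open Set Filter Vale.Agent.P281 Vale.Agent.P272.K Vale.Agent.P299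
open Vale.Agent.P299.H882 (xi)

noncomputable section

namespace Vale.Agent.P281.H716.LC

open Vale.Agent.P281.H713 Vale.Agent.P281.H713.SA Vale.Agent.P281.H716 Vale.Agent.P281.H713.KD
open Vale.Agent.P281.H716.KL Vale.Agent.P281.H498 Vale.Agent.P281.H167 Vale.Agent.P281.H716.IsSys
open Vale.Agent.P281.H713.TL (IsPullSection kodF ConstT)

/-- **Row LC6**: `BridgeT`, whose hypothesis on the pairs is only used if `N₀ χ + N₀ χ` is a norm of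
holomorphic functions. -/
def BridgeC : Prop := ∀ (n p M : ℕ) (X Z Y : Type)
  [TopologicalSpace X] [T2Space X] [CompactSpace X] [ConnectedSpace X]
  [ChartedSpace (Cm n) X] [IsManifold 𝓘(ℂ, Cm n) ω X]
  [TopologicalSpace Z] [ChartedSpace (Cm n) Z] [IsManifold 𝓘(ℂ, Cm n) ω Z]
  [TopologicalSpace Y] [T2Space Y] [ConnectedSpace Y]
  [ChartedSpace (Cm p) Y] [IsManifold 𝓘(ℂ, Cm p) ω Y]
  (χ : D.FormM n X) (_ : IsKahler χ)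
  (j : Z → X) (_ : J.IsBigOpen (Cm n) j) (f : Z → Y) (_ : ContMDiff 𝓘(ℂ, Cm n) 𝓘(ℂ, Cm p) ω f)
  (_ : ∃ z, Function.Surjective (mfderiv 𝓘(ℂ, Cm n) 𝓘(ℂ, Cm p) f z))
  (𝒢 : Set (Set Y)) (_ : 𝒢.Finite) (_ : ∀ G ∈ 𝒢, J.IsPrime (Cm p) G)
  (Δ : Set X → ℝ) (_ : J.IsSNC (Cm n) Δ)
  (Dv : Fin M → Set X) (_ : Function.Injective Dv) (_ : ∀ D, Δ D ≠ 0 ↔ ∃ i, Dv i = D)
  (r : Fin M → X → ℝ) (R : Fin M → D.FormM n X) (_ : IsBd Dv r R) (m₀ : ℕ) (_ : 0 < m₀)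
  (N : ℕ) (P : Fin N → X → ℂ) (R' : Set X)
  (_ : ∀ (p' μ : ℕ) (K : Fin M → ℕ) (N₀ N₁ : D.FormM n X → X → ℝ) (u : X → ℝ), m₀ ∣ μ →
    (∀ i, (K i : ℝ) ≤ μ * Δ (Dv i)) → IsDecPair Dv r χ p' μ K N₀ N₁ →
    IsHolNorm (n := n) (fun x => N₀ χ x + N₀ χ x) →
    (∀ g x, IsKahler g → 0 < N₀ g x → 0 < N₁ g x →
      u x = Real.log (N₁ g x) - Real.log (N₀ g x)) →
    ∀ x ∈ R', 0 < N₀ χ x → 0 < N₁ χ x → ∀ e, At e x → ∀ a₀, P a₀ x ≠ 0 → ∀ v : Cm n,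
      (∀ a, fderiv ℂ (fun z => P a (e.symm z) / P a₀ (e.symm z)) (e x) v = 0) →
      ∑ i, xi u e (e x) i * v i = 0),
  ConstT n p j f 𝒢 Δ P R'

/-- **the fibre side**: `FibPartGL` without `Δ₀ < 1`. -/
def FibPartC : Prop := ∀ (n p d : ℕ) (_ : n = p + d) (X Z Y F : Type)
  [TopologicalSpace X] [T2Space X] [CompactSpace X] [ConnectedSpace X]
  [ChartedSpace (Cm n) X] [IsManifold 𝓘(ℂ, Cm n) ω X]
  [TopologicalSpace Z] [ChartedSpace (Cm n) Z] [IsManifold 𝓘(ℂ, Cm n) ω Z]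
  [TopologicalSpace Y] [T2Space Y] [ConnectedSpace Y]
  [ChartedSpace (Cm p) Y] [IsManifold 𝓘(ℂ, Cm p) ω Y]
  [TopologicalSpace F] [T2Space F] [CompactSpace F] [ConnectedSpace F]
  [ChartedSpace (Cm d) F] [IsManifold 𝓘(ℂ, Cm d) ω F]
  (χ : Chart n X → Cm n → Matrix (Fin n) (Fin n) ℂ) (_ : IsKahler χ)
  (Δ Δ₀ : Set X → ℝ) (_ : J.IsSNC (Cm n) Δ)
  (_ : ∀ D, Δ₀ D ≤ Δ D) (t : ℝ) (_ : 0 < t) (_ : t ≤ 1)
  (m N : ℕ) (_ : 0 < m) (k : Set X → ℕ) (_ : ∀ D, (k D : ℝ) = m * Δ₀ D) (S : Fin N → X → ℂ)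
  (_ : ∀ b, J.IsSection (Cm n) (fun (D : Set X) z g => J.IsLocalEq (Cm n) D g z) m k (S b))
  (m' N' : ℕ) (_ : 0 < m') (k' : Set X → ℕ)
  (_ : ∀ D, (k' D : ℝ) = m' * (Δ₀ D + t * (Δ D - Δ₀ D))) (S' : Fin N' → X → ℂ)
  (_ : ∀ b, J.IsSection (Cm n) (fun (D : Set X) z g => J.IsLocalEq (Cm n) D g z) m' k' (S' b))
  (j : Z → X) (_ : J.IsBigOpen (Cm n) j) (f : Z → Y) (_ : ContMDiff 𝓘(ℂ, Cm n) 𝓘(ℂ, Cm p) ω f)
  (i : F → Z) (_ : IsSmoothFibre (Cm n) (Cm p) (Cm d) f i)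
  (_ : ∀ D, Δ D ≠ 0 → ∃ t, j (i t) ∉ D)
  (νF : ℕ) (_ : HasRankP d νF (k + k') (fun t => j (i t)) (prodF S S'))
  (βF : Chart d F → Cm d → Matrix (Fin d) (Fin d) ℂ) (_ : IsSemiKahler βF)
  (_ : IsGoodFixP n d (m + m') νF (k + k') (fun t => j (i t)) (prodF S S') βF),
  ∃ RF : Set F, Dense RF ∧ (∀ x ∈ RF, ∃ a, prodF S S' a (j (i x)) ≠ 0) ∧
    FlatSec d (eqF n (fun t => j (i t))) Δ (fun a t => prodF S S' a (j (i t))) RF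

/-- **Theorem LC**: theorem RC without `Δ₀ < 1`. -/
def MainPartC : Prop := ∀ (n p d : ℕ) (_ : n = p + d) (X Z Y F : Type)
  [TopologicalSpace X] [T2Space X] [CompactSpace X] [ConnectedSpace X]
  [ChartedSpace (Cm n) X] [IsManifold 𝓘(ℂ, Cm n) ω X]
  [TopologicalSpace Z] [ChartedSpace (Cm n) Z] [IsManifold 𝓘(ℂ, Cm n) ω Z]
  [TopologicalSpace Y] [T2Space Y] [ConnectedSpace Y]
  [ChartedSpace (Cm p) Y] [IsManifold 𝓘(ℂ, Cm p) ω Y]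
  [TopologicalSpace F] [T2Space F] [CompactSpace F] [ConnectedSpace F]
  [ChartedSpace (Cm d) F] [IsManifold 𝓘(ℂ, Cm d) ω F]
  (χ : Chart n X → Cm n → Matrix (Fin n) (Fin n) ℂ) (_ : IsKahler χ)
  (Δ Δ₀ : Set X → ℝ) (_ : J.IsSNC (Cm n) Δ)
  (_ : ∀ D, Δ₀ D ≤ Δ D) (t : ℝ) (_ : 0 < t) (_ : t ≤ 1)
  (m N : ℕ) (_ : 0 < m) (k : Set X → ℕ) (_ : ∀ D, (k D : ℝ) = m * Δ₀ D) (S : Fin N → X → ℂ)
  (_ : ∀ b, J.IsSection (Cm n) (fun (D : Set X) z g => J.IsLocalEq (Cm n) D g z) m k (S b))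
  (m' N' : ℕ) (_ : 0 < m') (k' : Set X → ℕ)
  (_ : ∀ D, (k' D : ℝ) = m' * (Δ₀ D + t * (Δ D - Δ₀ D))) (S' : Fin N' → X → ℂ)
  (_ : ∀ b, J.IsSection (Cm n) (fun (D : Set X) z g => J.IsLocalEq (Cm n) D g z) m' k' (S' b))
  (j : Z → X) (_ : J.IsBigOpen (Cm n) j) (f : Z → Y) (_ : ContMDiff 𝓘(ℂ, Cm n) 𝓘(ℂ, Cm p) ω f)
  (i : F → Z) (_ : IsSmoothFibre (Cm n) (Cm p) (Cm d) f i)
  (_ : ∀ D, Δ D ≠ 0 → ∃ t, j (i t) ∉ D)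
  (ν : ℕ) (_ : HasRankP n ν (k + k') id (KL.prodF S S'))
  (β : Chart n X → Cm n → Matrix (Fin n) (Fin n) ℂ) (_ : IsSemiKahler β)
  (_ : KL.IsGoodFix2 m m' ν k k' S S' β)
  (_ : (∃ (νF : ℕ) (βF : Chart d F → Cm d → Matrix (Fin d) (Fin d) ℂ),
      HasRankP d νF (k + k') (fun t => j (i t)) (KL.prodF S S') ∧ IsSemiKahler βF ∧
      IsGoodFixP n d (m + m') νF (k + k') (fun t => j (i t)) (KL.prodF S S') βF) ∨
    ∃ βR : Chart n X → Cm n → Matrix (Fin n) (Fin n) ℂ, IsSemiKahler βR ∧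
      IsRatFix n d (m + m') (k + k') Δ (fun t => j (i t)) (KL.prodF S S') βR),
  J.kod (Cm d) (fun (D : Set X) t g => ∃ e, J.IsLocalEq (Cm n) D e (j (i t)) ∧
      ∀ᶠ t' in 𝓝 t, g t' = e (j (i t'))) Δ + kodF (n := n) (p := p) Δ j f ≤
    J.kod (Cm n) (fun (D : Set X) x g => J.IsLocalEq (Cm n) D g x) Δ

end Vale.Agent.P281.H716.LC
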