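import Vale.Agent.P281.H716.LC.Rat
import Vale.Agent.P281.H716.LC.Br
import Vale.Agent.P281.H716.TL.FinR
import Vale.Agent.P281.H167.LC.Core
import Vale.Agent.P281.H156.LC.StepE
import Vale.Agent.P281.H723.LC.Boch
import Vale.Agent.P281.H413.LC.Cons
import Vale.Agent.P281.H575.LC.Mass

/-! P281, theorem LC. -/

namespace Vale.Agent.P281.H716.LC

open Vale.Agent.P281

/-- the analysis on `X`, coefficients `≤ 1` -/
theorem corePartC : H167.LC.CorePartC :=
  H167.LC.corePartC H227.GMC.epsPart H455.KD.bdPart
    (H156.LC.stepPartE H227.GMC.cohPart H455.KD.bdPart H708.c0Part H970.KD.intPart H575.KD.logPart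
      (H723.LC.bochPartE H455.KD.bdPart))
    H413.LC.consPart H575.LC.massLe

theorem fibPartC : FibPartC :=
  fibPartC_of H342.KG.formPartG H368.KG.growthPartG H342.KG.metPartG H368.KG.nullPart
    H413.FC.corePartF

theorem mainPartCT : MainPartCT :=
  mainPartCT_of H342.KG.formPartG H368.KG.growthPartG H342.KG.metPartG corePartC LCB.bridgeC fibPartC

/-- **Theorem LC.** -/
theorem mainPartC : MainPartC :=
  mainPartC_of H455.RC.curvePart H156.RC.closPart H156.RC.densPart H498.tensT mainPartCT

end Vale.Agent.P281.H716.LC
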