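import Vale.Agent.P281.H716.LC.Iface
import Vale.Agent.P281.H167.KG.Fib
import Vale.Agent.P281.H167.KG.Flat
import Vale.Agent.P281.H167.SA.K

/-! P281, theorem LC: the fibre side (413's proof of `FibPartGL`, which does not use `Δ₀ < 1`). -/

open scoped Manifold ContDiff Topology ComplexOrder
open Set Filter Vale.Agent.P281 Vale.Agent.P272.K Vale.Agent.P299
open Vale.Agent.P272.K.INT (IsClosedForm)

noncomputable section

set_option linter.all false

namespace Vale.Agent.P281.H716.LC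

open Vale.Agent.P281.MF Vale.Agent.P281.ISO
open Vale.Agent.P281.H713 Vale.Agent.P281.H713.SA Vale.Agent.P281.H716
open Vale.Agent.P281.H716.IsSys
open Vale.Agent.P281.H167.KG
open Vale.Agent.P281.H716.KL (prodF)

theorem fibPartC_of (hform : FormPartG) (hgr : GrowthPartG) (hmet : MetPartG)
    (hnull : NullPart) (hcoreF : KD.CorePartF) : FibPartC := by
  intro n p d hnpd X Z Y F _ _ _ _ _ _ _ _ _ _ _ _ _ _ _ _ _ _ _ _ χ hχ Δ Δ₀ hΔ hle
    t ht ht1 m N hm k hk S hS m' N' hm' k' hk' S' hS' j hj f hf i hi hne νF hνF βF hβF hNF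
  classical
  -- the divisors
  set T : Finset (Set X) := hΔ.1.toFinset with hTdef
  have hTΔ : ∀ D, D ∈ T ↔ Δ D ≠ 0 := fun D => Set.Finite.mem_toFinset _
  have hTex : ∀ D ∈ T, ∀ x, ∃ g, J.IsLocalEq (Cm n) D g x := fun D hD =>
    (hΔ.2.1 D ((hTΔ D).1 hD)).2.1
  have hsX : IsSys n (eqL n) T := isSys_eqL hTex
  have hΔ₀q : ∀ D, ∃ q : ℚ, Δ₀ D = q := by
    intro D
    refine ⟨(k D : ℚ) / m, ?_⟩
    have h0 : (m : ℝ) ≠ 0 := by exact_mod_cast hm.ne'
    push_cast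
    rw [hk D]
    field_simp
  have hΔ₀0 : ∀ D, 0 ≤ Δ₀ D := by
    intro D
    have h0 : (0 : ℝ) < m := by exact_mod_cast hm
    have h1 : (0 : ℝ) ≤ m * Δ₀ D := hk D ▸ Nat.cast_nonneg _
    exact nonneg_of_mul_nonneg_right h1 h0
  have hΔq : ∀ D, ∃ q : ℚ, Δ D = q := by
    intro D
    obtain ⟨q, hq, -, -⟩ := hΔ.2.2.1 D
    exact ⟨q, hq⟩
  have hΔz : ∀ D, Δ D = 0 → Δ₀ D = 0 := fun D h0 =>
    le_antisymm (by rw [← h0]; exact hle D) (hΔ₀0 D)
  have hΔ₀T : ∀ D, Δ₀ D ≠ 0 → D ∈ T := fun D hD => (hTΔ D).2 fun h0 => hD (hΔz D h0)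
  have hm0 : (0 : ℝ) < m := by exact_mod_cast hm
  have hm'0 : (0 : ℝ) < m' := by exact_mod_cast hm'
  have hkT : ∀ D, k D ≠ 0 → D ∈ T := by
    intro D hD
    refine hΔ₀T D fun h0 => hD ?_
    have := hk D
    rw [h0, mul_zero] at this
    exact_mod_cast this
  have hk'T : ∀ D, k' D ≠ 0 → D ∈ T := by
    intro D hD
    refine (hTΔ D).2 fun h0 => hD ?_
    have := hk' D
    rw [h0, hΔz D h0, sub_zero, mul_zero, add_zero, mul_zero] at this
    exact_mod_cast this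
  have hkkT : ∀ D, (k + k') D ≠ 0 → D ∈ T := by
    intro D hD
    by_contra hcon
    have h1 : k D = 0 := by
      by_contra h; exact hcon (hkT D h)
    have h2 : k' D = 0 := by
      by_contra h; exact hcon (hk'T D h)
    exact hD (by rw [Pi.add_apply, h1, h2])
  obtain ⟨A, B, hA, hAB, hABs⟩ := H716.KL.exists_AB (m := m) (m' := m') ht ht1 hΔq hΔ₀q hm hm' hk'
  set ΔP : Set X → ℝ := fun D => Δ₀ D + (m' * t / (m + m') : ℝ) * (Δ D - Δ₀ D) with hΔPd
  have hΔPT : ∀ D, ΔP D ≠ 0 → D ∈ T := by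
    intro D hD
    refine (hTΔ D).2 fun h0 => hD ?_
    rw [hΔPd]
    show Δ₀ D + (m' * t / (m + m') : ℝ) * (Δ D - Δ₀ D) = 0
    rw [h0, hΔz D h0, sub_zero, mul_zero, add_zero]
  have hkP : ∀ D, ((k + k') D : ℝ) = ((m + m' : ℕ) : ℝ) * ΔP D := by
    intro D
    have h1 : (m : ℝ) + m' ≠ 0 := by positivity
    rw [hΔPd]
    show (((k + k') D : ℕ) : ℝ) = ((m + m' : ℕ) : ℝ) *
      (Δ₀ D + (m' * t / (m + m') : ℝ) * (Δ D - Δ₀ D))
    rw [Pi.add_apply, Nat.cast_add, Nat.cast_add, hk D, hk' D]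
    field_simp
    ring
  have hkk0 : ∀ D, Δ D ≠ 0 → (k + k') D ≠ 0 := by
    intro D hD h0
    have h1 := hkP D
    rw [h0, Nat.cast_zero] at h1
    have h2 : (0 : ℝ) < ((m + m' : ℕ) : ℝ) := by push_cast; positivity
    have h3 : ΔP D = 0 := by
      rcases mul_eq_zero.1 h1.symm with h | h
      · exact absurd h h2.ne'
      · exact h
    have h4 : Δ₀ D + (m' * t / (m + m') : ℝ) * (Δ D - Δ₀ D) = 0 := h3
    have h5 : (0 : ℝ) < m' * t / (m + m') := by positivity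
    have h6 := mul_nonneg h5.le (sub_nonneg.2 (hle D))
    have h7 := hΔ₀0 D
    have h8 : Δ₀ D = 0 := by linarith
    rw [h8, zero_add, sub_zero] at h4
    rcases mul_eq_zero.1 h4 with h | h
    · exact h5.ne' h
    · exact hD h
  have hP : ∀ a, J.IsSection (Cm n) (eqL n) (m + m') (k + k') (prodF S S' a) := fun a =>
    hsX.mul hkT hk'T (hS _) (hS' _)
  have hjh : ∀ z, HolM (Cm n) (Cm n) j z := fun z => hj.1 z
  have hfh : ∀ z, HolM (Cm n) (Cm p) f z := fun z => hf z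
  have hih : ∀ z, HolM (Cm d) (Cm n) i z := fun z => hi.hol z
  have hι : ∀ t, HolM (Cm d) (Cm n) (fun t => j (i t)) t := fun t =>
    ContMDiffAt.comp t (hjh (i t)) (hih t)
  have hsF : IsSys d (eqF n (fun t => j (i t))) T := isSys_eqF hι hTex fun D hD =>
    hne D ((hTΔ D).1 hD)
  have hjd : ∀ z, (dM (Cm n) (Cm n) j z).det ≠ 0 := fun z => det_ne_of_inj (hj.2.2.1 z)
  obtain ⟨G, hG0, hG⟩ := adjF (n := n) (p := p) (d := d) hnpd hjh hjd hfh hi
  have himm : ∀ t, Function.Injective (mfderiv 𝓘(ℂ, Cm d) 𝓘(ℂ, Cm n) (fun t => j (i t)) t) := by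
    intro t
    have h1 : mfderiv 𝓘(ℂ, Cm d) 𝓘(ℂ, Cm n) (fun t => j (i t)) t =
        (mfderiv 𝓘(ℂ, Cm n) 𝓘(ℂ, Cm n) j (i t)).comp (mfderiv 𝓘(ℂ, Cm d) 𝓘(ℂ, Cm n) i t) :=
      mfderiv_comp t ((hjh (i t)).mdifferentiableAt (by simp))
        ((hih t).mdifferentiableAt (by simp))
    rw [h1]
    exact (hj.2.2.1 (i t)).comp (hi.immersive t)
  obtain ⟨χF, hχF⟩ := H167.SA.pullPart n d X F (fun t => j (i t)) hι himm χ hχ
  obtain ⟨RF, hRFd, hRF0, hflatF⟩ := exists_flatSecG hform hgr hmet hnull hcoreF hχF hsF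
    (Δ := ΔP) hΔPT (Nat.add_pos_left hm m') hkP
    (S := fun b t => prodF S S' b (j (i t)) * G t ^ (m + m'))
    (fun b => restr_sec hι hG (hP b)) hβF
    (sysLoc_fib hG hNF) (by
      obtain ⟨x, b₀, c, hx, h0, hc⟩ := hνF
      refine ⟨x, b₀, c, (off_eqF hι hTex).2 fun D hD => hx D (hkk0 D ((hTΔ D).1 hD)),
        mul_ne_zero h0 (pow_ne_zero _ (hG0 x)), ?_⟩
      have h1 : ∀ b, (fun z => prodF S S' (c b) (j (i z)) * G z ^ (m + m') /
          (prodF S S' b₀ (j (i z)) * G z ^ (m + m'))) =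
          fun z => prodF S S' (c b) (j (i z)) / prodF S S' b₀ (j (i z)) :=
        fun b => funext fun z => mul_div_mul_right _ _ (pow_ne_zero _ (hG0 z))
      simp only [h1]
      exact hc)
  have hF : FlatSec d (eqF n (fun t => j (i t))) ΔP (fun a t => prodF S S' a (j (i t))) RF :=
    flatSec_mul hG0 hflatF
  have hRF1 : ∀ x ∈ RF, ∃ a, prodF S S' a (j (i x)) ≠ 0 := by
    intro x hx
    obtain ⟨a, ha⟩ := hRF0 x hx
    exact ⟨a, left_ne_zero_of_mul ha⟩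
  refine ⟨RF ∩ off (eqF n (fun t => j (i t))) T,
    hRFd.inter_of_isOpen_right hsF.dense_off hsF.isOpen_off, fun x hx => hRF1 x hx.1, ?_⟩
  refine H716.KL.flatSec_trans hsF (fun D hD => (hTΔ D).2 hD) hΔ₀T hA hAB (ΔP := ΔP) ?_ hk hm
    (S := fun b t => S b (j (i t)) * G t ^ m) (fun b => restr_sec hι hG (hS b))
    (fun x hx => hx.2) ?_ ?_
  · intro D
    have h1 : ΔP D - Δ₀ D = (m' * t / (m + m') : ℝ) * (Δ D - Δ₀ D) := by
      show Δ₀ D + (m' * t / (m + m') : ℝ) * (Δ D - Δ₀ D) - Δ₀ D = _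
      ring
    rw [h1]
    exact hABs D
  · intro x hx
    obtain ⟨a, ha⟩ := hRF1 x hx.1
    have h1 : S (finProdFinEquiv.symm a).1 (j (i x)) ≠ 0 := left_ne_zero_of_mul ha
    exact ⟨(finProdFinEquiv.symm a).1, mul_ne_zero h1 (pow_ne_zero _ (hG0 x))⟩
  · intro x hx
    exact hF x hx.1

end Vale.Agent.P281.H716.LC
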