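import Vale.Agent.P281.H716.LC.Core
import Vale.Agent.P281.H716.LC.Fib
import Vale.Agent.P281.H716.TL.Asm
import Vale.Agent.P281.H167.RC.Main

/-! P281, theorem LC: assembly. -/

open scoped Manifold ContDiff Topology ComplexOrder
open Set Filter Vale.Agent.P281 Vale.Agent.P272.K Vale.Agent.P299
open Vale.Agent.P299.H882 (xi)

set_option linter.all false

noncomputable section

namespace Vale.Agent.P281.H716.LC

open Vale.Agent.P281.MF Vale.Agent.P281.ISO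
open Vale.Agent.P281.H713 Vale.Agent.P281.H713.SA Vale.Agent.P281.H713.KD Vale.Agent.P281.H716
open Vale.Agent.P281.H716.IsSys Vale.Agent.P281.H716.KL
open Vale.Agent.P281.H167.KG (SysLoc SysDat LocAt FormPartG GrowthPartG MetPartG exists_sysDat
  sysLoc_id)
open Vale.Agent.P281.H713.TL (IsPullSection kodF ConstT AbsPartT MainPartT BridgeT)
open Vale.Agent.P281.H716.TL (exists_submersive main_absT)
open Vale.Agent.P281.H167.LC (CorePartC)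

/-- theorem LC, with the hypothesis of theorem TL on the fibre -/
def MainPartCT : Prop := ∀ (n p d : ℕ) (_ : n = p + d) (X Z Y F : Type)
  [TopologicalSpace X] [T2Space X] [CompactSpace X] [ConnectedSpace X]
  [ChartedSpace (Cm n) X] [IsManifold 𝓘(ℂ, Cm n) ω X]
  [TopologicalSpace Z] [ChartedSpace (Cm n) Z] [IsManifold 𝓘(ℂ, Cm n) ω Z]
  [TopologicalSpace Y] [T2Space Y] [ConnectedSpace Y]
  [ChartedSpace (Cm p) Y] [IsManifold 𝓘(ℂ, Cm p) ω Y]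
  [TopologicalSpace F] [T2Space F] [CompactSpace F] [ConnectedSpace F]
  [ChartedSpace (Cm d) F] [IsManifold 𝓘(ℂ, Cm d) ω F]
  (χ : Chart n X → Cm n → Matrix (Fin n) (Fin n) ℂ) (_ : IsKahler χ)
  (Δ Δ₀ : Set X → ℝ) (_ : J.IsSNC (Cm n) Δ)
  (_ : ∀ D, Δ₀ D ≤ Δ D) (t : ℝ) (_ : 0 < t) (_ : t ≤ 1)
  (m N : ℕ) (_ : 0 < m) (k : Set X → ℕ) (_ : ∀ D, (k D : ℝ) = m * Δ₀ D) (S : Fin N → X → ℂ)
  (_ : ∀ b, J.IsSection (Cm n) (fun (D : Set X) z g => J.IsLocalEq (Cm n) D g z) m k (S b))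
  (m' N' : ℕ) (_ : 0 < m') (k' : Set X → ℕ)
  (_ : ∀ D, (k' D : ℝ) = m' * (Δ₀ D + t * (Δ D - Δ₀ D))) (S' : Fin N' → X → ℂ)
  (_ : ∀ b, J.IsSection (Cm n) (fun (D : Set X) z g => J.IsLocalEq (Cm n) D g z) m' k' (S' b))
  (j : Z → X) (_ : J.IsBigOpen (Cm n) j) (f : Z → Y) (_ : ContMDiff 𝓘(ℂ, Cm n) 𝓘(ℂ, Cm p) ω f)
  (i : F → Z) (_ : IsSmoothFibre (Cm n) (Cm p) (Cm d) f i)
  (_ : ∀ D, Δ D ≠ 0 → ∃ t, j (i t) ∉ D)
  (ν : ℕ) (_ : H167.HasRankP n ν (k + k') id (prodF S S'))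
  (β : Chart n X → Cm n → Matrix (Fin n) (Fin n) ℂ) (_ : H167.IsSemiKahler β)
  (_ : IsGoodFix2 m m' ν k k' S S' β)
  (νF : ℕ) (_ : H167.HasRankP d νF (k + k') (fun t => j (i t)) (prodF S S'))
  (βF : Chart d F → Cm d → Matrix (Fin d) (Fin d) ℂ) (_ : H167.IsSemiKahler βF)
  (_ : H167.IsGoodFixP n d (m + m') νF (k + k') (fun t => j (i t)) (prodF S S') βF),
  J.kod (Cm d) (fun (D : Set X) t g => ∃ e, J.IsLocalEq (Cm n) D e (j (i t)) ∧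
      ∀ᶠ t' in 𝓝 t, g t' = e (j (i t'))) Δ + kodF (n := n) (p := p) Δ j f ≤
    J.kod (Cm n) (fun (D : Set X) x g => J.IsLocalEq (Cm n) D g x) Δ

theorem mainPartCT_of (hform : FormPartG) (hgr : GrowthPartG) (hmet : MetPartG)
    (hcore : CorePartC) (hbr : BridgeC) (hfib : FibPartC) : MainPartCT := by
  intro n p d hnpd X Z Y F _ _ _ _ _ _ _ _ _ _ _ _ _ _ _ _ _ _ _ _ χ hχ Δ Δ₀ hΔ hle t ht ht1
    m N hm k hk S hS m' N' hm' k' hk' S' hS' j hj f hf i hi hne ν hν β hβ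
    hgood νF hνF βF hβF hNF
  classical
  set T : Finset (Set X) := hΔ.1.toFinset with hTdef
  have hTΔ : ∀ D, D ∈ T ↔ Δ D ≠ 0 := fun D => Set.Finite.mem_toFinset _
  have hTex : ∀ D ∈ T, ∀ x, ∃ g, J.IsLocalEq (Cm n) D g x := fun D hD =>
    (hΔ.2.1 D ((hTΔ D).1 hD)).2.1
  have hsX : IsSys n (eqL n) T := isSys_eqL hTex
  have hΔ₀0 : ∀ D, 0 ≤ Δ₀ D := by
    intro D
    have h0 : (0 : ℝ) < m := by exact_mod_cast hm
    have h1 : (0 : ℝ) ≤ m * Δ₀ D := hk D ▸ Nat.cast_nonneg _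
    exact nonneg_of_mul_nonneg_right h1 h0
  have hzero : ∀ D, Δ D = 0 → Δ₀ D = 0 := fun D hD => le_antisymm (hD ▸ hle D) (hΔ₀0 D)
  have hksupp : ∀ D, k D ≠ 0 → D ∈ T := by
    intro D hD
    refine (hTΔ D).2 fun h0 => hD ?_
    have h1 := hk D
    rw [hzero D h0, mul_zero] at h1
    exact_mod_cast h1
  have hk'supp : ∀ D, k' D ≠ 0 → D ∈ T := by
    intro D hD
    refine (hTΔ D).2 fun h0 => hD ?_
    have h1 := hk' D
    rw [hzero D h0, h0, sub_self, mul_zero, add_zero, mul_zero] at h1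
    exact_mod_cast h1
  obtain ⟨M, Dv, r, R, m₀, R', hinj, hDv, hBd, hm₀, hRo, hRd, hX⟩ := core_LC hform hgr hmet
    hcore hχ hΔ hle ht ht1 hm hk hS hm' hk' hS' hν hβ hgood
  have hXY : ∀ 𝒢 : Set (Set Y), 𝒢.Finite → (∀ G ∈ 𝒢, J.IsPrime (Cm p) G) →
      ConstT n p j f 𝒢 Δ (prodF S S') R' := fun 𝒢 h1 h2 =>
    hbr n p M X Z Y χ hχ j hj f hf (exists_submersive hi) 𝒢 h1 h2 Δ hΔ Dv hinj hDv r R hBd m₀ hm₀
      (N * N') (prodF S S') R' hX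
  obtain ⟨RF, hRFd, hRF0, hF⟩ := hfib n p d hnpd X Z Y F χ hχ Δ Δ₀ hΔ hle t ht ht1 m N hm k hk S
    hS m' N' hm' k' hk' S' hS' j hj f hf i hi hne νF hνF βF hβF hNF
  refine main_absT hnpd hΔ hj hf hi hne (mP := m + m')
    (Nat.add_pos_left hm m') (kP := k + k') (fun D => ?_) (P := prodF S S')
    (fun b => hsX.mul hksupp hk'supp (hS _) (hS' _)) hRo hRd hXY hRFd hF hRF0
  rw [Pi.add_apply]
  push_cast
  rw [hk D, hk' D, add_mul]
  have h1 : Δ₀ D + t * (Δ D - Δ₀ D) ≤ Δ D := by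
    have := mul_le_mul_of_nonneg_right ht1 (sub_nonneg.2 (hle D))
    linarith
  exact add_le_add (mul_le_mul_of_nonneg_left (hle D) (Nat.cast_nonneg _))
    (mul_le_mul_of_nonneg_left h1 (Nat.cast_nonneg _))

end Vale.Agent.P281.H716.LC
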