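import Vale.Agent.P281.H716.LC.Iface
import Vale.Agent.P281.H716.LD.Asm
import Vale.Agent.P281.H342.MFS.SecMix

/-! P281, theorem LC: the X side. -/

open scoped Manifold ContDiff Topology ComplexOrder
open Set Filter Vale.Agent.P281 Vale.Agent.P272.K Vale.Agent.P299
open Vale.Agent.P272.K.INT (IsClosedForm)
open Vale.Agent.P272.K.AMP (hess)
open Vale.Agent.P299.H882 (xi)

set_option linter.all false

noncomputable section

namespace Vale.Agent.P281.H716.LC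

open Vale.Agent.P281.MF Vale.Agent.P281.ISO
open Vale.Agent.P281.H713 Vale.Agent.P281.H713.SA Vale.Agent.P281.H713.KD Vale.Agent.P281.H716
open Vale.Agent.P281.H716.IsSys Vale.Agent.P281.H716.KL
open Vale.Agent.P281.H167.KG (SysLoc SysDat LocAt FormPartG GrowthPartG MetPartG exists_sysDat
  sysLoc_id)
open Vale.Agent.P281.H167.GM (mixX addF)
open Vale.Agent.P281.H227.GMC (isClosed_addF)
open Vale.Agent.P281.H167.LC (CorePartC)

/-- **the X side**: the quotients of tensors are constant along the kernel of the map given by the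
sections `S b * S' c` -/
theorem core_LC (hform : FormPartG) (hgr : GrowthPartG) (hmet : MetPartG)
    (hcore : CorePartC) {n : ℕ} {X : Type}
    [TopologicalSpace X] [T2Space X] [CompactSpace X] [ConnectedSpace X]
    [ChartedSpace (Cm n) X] [IsManifold 𝓘(ℂ, Cm n) ω X]
    {χ : D.FormM n X} (hχ : IsKahler χ)
    {Δ Δ₀ : Set X → ℝ} (hΔ : J.IsSNC (Cm n) Δ)
    (hle : ∀ D, Δ₀ D ≤ Δ D) {t : ℝ} (ht : 0 < t) (ht1 : t ≤ 1)
    {m N : ℕ} (hm : 0 < m) {k : Set X → ℕ} (hk : ∀ D, (k D : ℝ) = m * Δ₀ D) {S : Fin N → X → ℂ}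
    (hS : ∀ b, J.IsSection (Cm n) (eqL n) m k (S b))
    {m' N' : ℕ} (hm' : 0 < m') {k' : Set X → ℕ}
    (hk' : ∀ D, (k' D : ℝ) = m' * (Δ₀ D + t * (Δ D - Δ₀ D))) {S' : Fin N' → X → ℂ}
    (hS' : ∀ b, J.IsSection (Cm n) (eqL n) m' k' (S' b))
    {ν : ℕ} (hν : H167.HasRankP n ν (k + k') id (prodF S S'))
    {β : D.FormM n X} (hβ : H167.IsSemiKahler β) (hgood : IsGoodFix2 m m' ν k k' S S' β) :
    ∃ (M : ℕ) (Dv : Fin M → Set X) (r : Fin M → X → ℝ) (R : Fin M → D.FormM n X) (m₀ : ℕ)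
      (R' : Set X), Function.Injective Dv ∧ (∀ D, Δ D ≠ 0 ↔ ∃ i, Dv i = D) ∧ IsBd Dv r R ∧
      0 < m₀ ∧ IsOpen R' ∧ Dense R' ∧
      ∀ (p' μ : ℕ) (K : Fin M → ℕ) (N₀ N₁ : D.FormM n X → X → ℝ) (u : X → ℝ), m₀ ∣ μ →
        (∀ i, (K i : ℝ) ≤ μ * Δ (Dv i)) → IsDecPair Dv r χ p' μ K N₀ N₁ →
        IsHolNorm (n := n) (fun x => N₀ χ x + N₀ χ x) →
        (∀ g x, IsKahler g → 0 < N₀ g x → 0 < N₁ g x →
          u x = Real.log (N₁ g x) - Real.log (N₀ g x)) →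
        ∀ x ∈ R', 0 < N₀ χ x → 0 < N₁ χ x → ∀ e, At e x → ∀ a₀, prodF S S' a₀ x ≠ 0 →
          ∀ v : Cm n, (∀ a, fderiv ℂ (fun z => prodF S S' a (e.symm z) /
            prodF S S' a₀ (e.symm z)) (e x) v = 0) → ∑ i, xi u e (e x) i * v i = 0 := by
  classical
  set T : Finset (Set X) := hΔ.1.toFinset with hTdef
  have hTΔ : ∀ D, D ∈ T ↔ Δ D ≠ 0 := fun D => Set.Finite.mem_toFinset _
  have hTex : ∀ D ∈ T, ∀ x, ∃ g, J.IsLocalEq (Cm n) D g x := fun D hD =>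
    (hΔ.2.1 D ((hTΔ D).1 hD)).2.1
  have hsX : IsSys n (eqL n) T := isSys_eqL hTex
  have hm0 : (0 : ℝ) < m := by exact_mod_cast hm
  have hm'0 : (0 : ℝ) < m' := by exact_mod_cast hm'
  have hΔ₀0 : ∀ D, 0 ≤ Δ₀ D := by
    intro D
    have h1 : (0 : ℝ) ≤ m * Δ₀ D := hk D ▸ Nat.cast_nonneg _
    exact nonneg_of_mul_nonneg_right h1 hm0
  have hΔ01 : ∀ D, 0 ≤ Δ D ∧ Δ D ≤ 1 := by
    intro D
    obtain ⟨q, hq, hq0, hq1⟩ := hΔ.2.2.1 D
    rw [hq]
    exact ⟨by exact_mod_cast hq0, by exact_mod_cast hq1⟩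
  have hΔ0 : ∀ D, 0 ≤ Δ D := fun D => (hΔ01 D).1
  set Δ₁ : Set X → ℝ := fun D => Δ₀ D + t * (Δ D - Δ₀ D) with hΔ₁d
  set cc : ℝ := m' * t / (m + m') with hcc
  have hcc0 : 0 < cc := by positivity
  have hcc1 : cc ≤ 1 := by
    rw [hcc, div_le_one (by positivity)]
    nlinarith
  set ΔP : Set X → ℝ := fun D => Δ₀ D + cc * (Δ D - Δ₀ D) with hΔPd
  have hkP : ∀ D, (((k + k') D : ℕ) : ℝ) = ((m + m' : ℕ) : ℝ) * ΔP D := by
    intro D
    have hne : (m : ℝ) + m' ≠ 0 := by positivity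
    simp only [hΔPd, hcc, Pi.add_apply]
    push_cast
    rw [hk D, hk' D]
    field_simp
    ring
  have hzero : ∀ D, Δ D = 0 → Δ₀ D = 0 := fun D hD => le_antisymm (hD ▸ hle D) (hΔ₀0 D)
  have hksupp : ∀ D, k D ≠ 0 → D ∈ T := by
    intro D hD
    refine (hTΔ D).2 fun h0 => hD ?_
    have h1 := hk D
    rw [hzero D h0, mul_zero] at h1
    exact_mod_cast h1
  have hk'supp : ∀ D, k' D ≠ 0 → D ∈ T := by
    intro D hD
    refine (hTΔ D).2 fun h0 => hD ?_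
    have h1 := hk' D
    rw [hzero D h0, h0, sub_self, mul_zero, add_zero, mul_zero] at h1
    exact_mod_cast h1
  have hkPsupp : ∀ D, (k + k') D ≠ 0 → D ∈ T := by
    intro D hD
    by_contra hcon
    have h1 : k D = 0 := by by_contra h2; exact hcon (hksupp D h2)
    have h2 : k' D = 0 := by by_contra h2; exact hcon (hk'supp D h2)
    exact hD (by rw [Pi.add_apply, h1, h2])
  have hTk : ∀ D ∈ T, (k + k') D ≠ 0 := by
    intro D hD h0
    rw [Pi.add_apply, Nat.add_eq_zero_iff] at h0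
    have h1 := hk' D
    rw [h0.2, Nat.cast_zero] at h1
    have h2 : 0 < Δ D := lt_of_le_of_ne (hΔ0 D) (Ne.symm ((hTΔ D).1 hD))
    have h3 : Δ₀ D = 0 := by
      have := hk D
      rw [h0.1, Nat.cast_zero] at this
      rcases mul_eq_zero.1 this.symm with h4 | h4
      · exact absurd h4 hm0.ne'
      · exact h4
    rw [h3, sub_zero, zero_add] at h1
    have : 0 < m' * (t * Δ D) := by positivity
    linarith
  -- the divisors and the metrics
  obtain ⟨M, Dv, hinj, hDvT⟩ := exists_enum' T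
  have hDv : ∀ i, Dv i ∈ T := fun i => (hDvT _).2 ⟨i, rfl⟩
  have hprod : ∀ f : Set X → ℂ, ∏ i, f (Dv i) = ∏ D ∈ T, f D := by
    intro f
    have h1 : T = Finset.univ.image Dv := by
      ext D
      rw [hDvT, Finset.mem_image]
      simp
    rw [h1, Finset.prod_image fun i _ i' _ hii => hinj hii]
  choose ψ hψ hψle using fun i => H342.KD.exists_wt_le hsX (hDv i)
  have hφ := AMP.Main.isCanonical_logdet hχ.toIsHermitian
  set φ : Chart n X → Cm n → ℝ := fun e z => Real.log (χ e z).det.re with hφd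
  set r : Fin M → X → ℝ := fun i => H342.KD.rr hsX (Dv i) (ψ i) with hrd
  set R : Fin M → D.FormM n X := fun i => Vale.Agent.P285.TM.cv (H342.KD.OD hsX (Dv i) (hDv i))
    (ψ i) with hRd
  have hBd : IsBd Dv r R := by
    refine H342.KD.isBd hsX hinj hDv hψ hψle ?_
    intro x g hg c
    obtain ⟨ξ, hξ⟩ := hΔ.2.2.2 x g (fun D hD hx => hg D ((hTΔ D).2 hD) hx)
      (fun D => c ⟨D.1, (hTΔ D.1).2 D.2.1, D.2.2⟩)
    exact ⟨ξ, funext fun D => congrFun hξ ⟨D.1, (hTΔ D.1).1 D.2.1, D.2.2⟩⟩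
  -- the system of the products
  have hgoodP := sysLoc_id (goodFixP_of hgood)
  have hexP : ∀ x, ∃ (r : ℕ) (g : Fin r → X → ℂ) (a : Fin r → ℕ) (H : Fin (N * N') → X → ℂ),
      SysLoc (n := n) (eqL n) (m + m') (k + k') (prodF S S') x g a H := fun x => by
    obtain ⟨r, g, a, H, h1, -⟩ := hgoodP x
    exact ⟨r, g, a, H, h1⟩
  have hPs : ∀ b, J.IsSection (Cm n) (eqL n) (m + m') (k + k') (prodF S S' b) := fun b =>
    hsX.mul hksupp hk'supp (hS _) (hS' _)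
  obtain ⟨hΛP, ⟨ρP, hρP⟩, -⟩ := hmet n X (Set X) (eqL n) T hsX φ hφ ΔP (m + m') (N * N')
    (Nat.add_pos_left hm m') (k + k') hkPsupp hkP M Dv hinj hDvT hDv ψ hψ (prodF S S') hPs hexP
  obtain ⟨CP, θ, ν', C₁, RP, hD⟩ := exists_sysDat hform hgr hχ hsX (Nat.add_pos_left hm m') hkPsupp
    hPs hΛP hρP hβ hgoodP (by
      obtain ⟨x, b₀, c, hx, h0, hc⟩ := hν
      exact ⟨x, b₀, c, (off_eqL hTex).2 fun D hD => hx D (hTk D hD), h0, hc⟩)
  obtain ⟨l, hl, K₁, hK₁, -⟩ := exists_denominator (JB.snc hΔ)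
  have hβc := H167.GM.IsSemiKahler.isClosedForm hβ
  refine ⟨M, Dv, r, R, 1, RP, hinj, (fun D => (hTΔ D).symm.trans (hDvT D)), hBd, one_pos, hD.op,
    hD.de, ?_⟩
  intro p' μ K N₀ N₁ u _ hK hdec hhol hu x hx h0 h1 e he a₀ ha₀ v hv
  obtain ⟨hxo, -, -, hg⟩ := hD.good x hx
  -- a section which does not vanish at `x`
  set b : Fin N := (finProdFinEquiv.symm a₀).1 with hbd
  have hb : S b x ≠ 0 := left_ne_zero_of_mul ha₀
  -- growth
  have hβs : ∀ s : ℝ, 1 ≤ s → ∀ e x, At e x → (addF β s θ e (e x)).PosSemidef := by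
    intro s hs e x he
    exact (hβ.posSemidef e x he).add ((hD.psd e x he).smul
      (by exact_mod_cast (le_trans zero_le_one hs)))
  have hΛ₀ : IsClosedForm (clsK φ (fun i => Δ₀ (Dv i)) R) := H342.KG.closed_cls hBd.closed hφ
  have hΛ : IsClosedForm (clsK φ (fun i => Δ (Dv i)) R) := H342.KG.closed_cls hBd.closed hφ
  have hgrow : ∀ s : ℝ, 1 ≤ s → mixX (addF β s θ) (clsK φ (fun i => Δ (Dv i)) R) ≤
      cc⁻¹ * C₁ * s ^ ν' / s := by
    intro s hs
    have h2 : 0 ≤ mixX (addF β s θ) (clsK φ (fun i => Δ₀ (Dv i)) R) :=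
      H342.MFS.mix_nonneg_sec hsX hprod hDv hψ hφ hksupp (fun i => hk (Dv i)) hm (hS b)
        ⟨x, hxo, hb⟩ hχ (isClosed_addF hβc hD.closed s) (hβs s hs)
    have h3 := mixX_comb (A := addF β s θ) (isClosed_addF hβc hD.closed s) hΛ hΛ₀
      (B'' := clsK φ (fun i => ΔP (Dv i)) R) (a := cc) (a' := 1 - cc) (fun e x _ => by
        simp only [clsK, smul_add, Finset.smul_sum, smul_smul, hΔPd]
        have h4 : cHess (φ e) (e x) = (cc : ℂ) • cHess (φ e) (e x) +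
            ((1 - cc : ℝ) : ℂ) • cHess (φ e) (e x) := by
          rw [← add_smul]
          have : (cc : ℂ) + ((1 - cc : ℝ) : ℂ) = 1 := by push_cast; ring
          rw [this, one_smul]
        have h5 : ∑ i, ((Δ₀ (Dv i) + cc * (Δ (Dv i) - Δ₀ (Dv i)) : ℝ) : ℂ) • R i e (e x) =
            ∑ i, ((cc : ℂ) * ((Δ (Dv i) : ℝ) : ℂ)) • R i e (e x) +
            ∑ i, (((1 - cc : ℝ) : ℂ) * ((Δ₀ (Dv i) : ℝ) : ℂ)) • R i e (e x) := by
          rw [← Finset.sum_add_distrib]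
          refine Finset.sum_congr rfl fun i _ => ?_
          rw [← add_smul]
          congr 1
          push_cast
          ring
        rw [h5]
        nth_rewrite 1 [h4]
        abel)
    have h6 : cc * mixX (addF β s θ) (clsK φ (fun i => Δ (Dv i)) R) ≤ C₁ * s ^ ν' / s := by
      have h7 := hD.growth s hs
      have h8 : mixX (addF β s θ) (clsK φ (fun i => ΔP (Dv i)) R) ≤ C₁ * s ^ ν' / s := h7
      rw [h3] at h8
      have h9 := mul_nonneg (sub_nonneg.2 hcc1) h2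
      linarith
    have h10 := mul_le_mul_of_nonneg_left h6 (inv_nonneg.2 hcc0.le)
    rw [inv_mul_cancel_left₀ hcc0.ne'] at h10
    refine h10.trans (le_of_eq ?_)
    ring
  -- the volume form: the norm of one section of `m l (K_X + Δ)`
  obtain ⟨l', rfl⟩ : ∃ l', l = l' + 1 := ⟨l - 1, by omega⟩
  set k₂ : Set X → ℕ := fun D => m * K₁ D with hk₂d
  have hk₂ : ∀ D, (k₂ D : ℝ) = (((l' + 1) * m : ℕ) : ℝ) * Δ D := by
    intro D
    simp only [hk₂d]
    push_cast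
    have := hK₁ D
    push_cast at this
    rw [this]
    ring
  have hk₂supp : ∀ D, k₂ D ≠ 0 → D ∈ T := by
    intro D hD
    refine (hTΔ D).2 fun h0 => hD ?_
    have h1 := hk₂ D
    rw [h0, mul_zero] at h1
    exact_mod_cast h1
  have hm₂ : 0 < (l' + 1) * m := Nat.mul_pos (Nat.succ_pos _) hm
  have hs₂ : J.IsSection (Cm n) (eqL n) ((l' + 1) * m) k₂ (fun z => S b z ^ l' * S b z) :=
    hsX.pow_mul hksupp (hS b) (hS b) l' hk₂supp fun D => by
      have h5 : (((l' + 1) * k D : ℕ) : ℝ) ≤ (k₂ D : ℝ) := by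
        rw [hk₂ D]
        push_cast
        rw [hk D]
        have h6 := mul_le_mul_of_nonneg_left (hle D) (by positivity : (0 : ℝ) ≤ ((l' : ℝ) + 1) * m)
        linarith
      exact_mod_cast h5
  have hs₂x : S b x ^ l' * S b x ≠ 0 := mul_ne_zero (pow_ne_zero _ hb) hb
  obtain ⟨-, C, hC0, hcurv⟩ := H342.MFS.nrm_curv (dl := fun i => Δ (Dv i)) hsX hprod hDv hψ hφ
    hk₂supp (fun i => hk₂ (Dv i)) hm₂ hs₂ ⟨x, hxo, hs₂x⟩ hχ
  have hρs := H342.KG.nrm_smooth hsX hprod hDv hψ hφ hk₂supp hs₂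
  have hρ0 := fun x => H342.KG.nrm_nonneg (Dv := Dv) (ψ := ψ) (φ := φ) (k := k₂)
    (m := (l' + 1) * m) (s := fun z => S b z ^ l' * S b z) hsX x
  have hρx : 0 < H342.KG.nrm hsX Dv ψ φ k₂ ((l' + 1) * m) (fun z => S b z ^ l' * S b z) x :=
    (H342.KG.nrm_pos_iff hsX hk₂supp hs₂ hxo).2 hs₂x
  exact hcore n M X χ hχ φ hφ ((l' + 1) * m) hm₂ _ hρs hρ0 Dv r R hBd (fun i => Δ (Dv i))
    (fun i => hΔ01 (Dv i)) C (curvK_of hφ hρs hρ0 hcurv) θ β hD.closed hβc hD.psd hβ.posSemidef ν'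
    (cc⁻¹ * C₁) ((eventually_ge_atTop 1).frequently.mono fun s hs => hgrow s hs) p' μ K hK N₀ N₁
    hdec hhol u hu e x he h0 h1 hρx
    (fun i => bd_pos' hBd ((off_eqL hTex).1 hxo (Dv i) (hDv i))) (hg e he).1 (hg e he).2 v
    ((hD.ker e x he hxo a₀ ha₀ v).2 hv)

end Vale.Agent.P281.H716.LC
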