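import Vale.Agent.P281.H716.LC.Asm

/-! P281, theorem LC: the fibres whose fixed part is covered by rational curves. -/

open scoped Manifold ContDiff Topology ComplexOrder
open Set Filter Vale.Agent.P272.K Vale.Agent.P299
open Vale.Agent.P299.D (Ten tenPull FormM)

noncomputable section

namespace Vale.Agent.P281.H716.LC

open Vale.Agent.P281 Vale.Agent.P281.MF Vale.Agent.P281.ISO
open Vale.Agent.P281.H713 Vale.Agent.P281.H713.SA Vale.Agent.P281.H716 Vale.Agent.P281.H167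
open Vale.Agent.P281.H713.TL Vale.Agent.P281.H167.RC

/-- the fibre covered by rational curves (the proof of `mainPartR_of`) -/
theorem mainPartC_of (hB : CurvePart) (clos : ClosPart) (dens : DensPart) (hT : TensT)
    (hmain : MainPartCT) : MainPartC := by
  classical
  intro n p d hn X Z Y F _ _ _ _ _ _ _ _ _ _ _ _ _ _ _ _ _ _ _ _ χ hχ Δ Δ₀ hΔ hle t ht0 ht1
    m N hm k hk S hS m' N' hm' k' hk' S' hS' j hj f hf i hi hne ν hν β hβ hgood hF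
  rcases hF with ⟨νF, βF, h1, h2, h3⟩ | ⟨βR, hβR, hrat⟩
  · exact hmain n p d hn X Z Y F χ hχ Δ Δ₀ hΔ hle t ht0 ht1 m N hm k hk S hS m' N' hm' k' hk'
      S' hS' j hj f hf i hi hne ν hν β hβ hgood νF h1 βF h2 h3
  by_cases hbot : kodF (n := n) (p := p) Δ j f = ⊥
  · rw [hbot, WithBot.add_bot]
    exact bot_le
  -- a nonzero section
  have hex : ∃ (m₁ : ℕ) (K₀ : Set X → ℕ) (𝒢 : Set (Set Y)) (σ : Y → ℂ) (y : Y), 0 < m₁ ∧
      (∀ D, (K₀ D : ℝ) ≤ m₁ * Δ D) ∧ 𝒢.Finite ∧ (∀ G ∈ 𝒢, J.IsPrime (Cm p) G) ∧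
      IsPullSection (n := n) (p := p) m₁ K₀ 𝒢 j f σ ∧ (∀ G ∈ 𝒢, y ∉ G) ∧ σ y ≠ 0 := by
    by_contra hcon
    apply hbot
    refine le_bot_iff.1 (iSup₂_le fun l hl => ?_)
    obtain ⟨m₁, K₀, 𝒢, σ, y, h1, h2, h3, h4, h5, h6, h7, -⟩ := hl
    exact absurd ⟨m₁, K₀, 𝒢, σ 0, y, h1, h2, h3, h4, h5 0, h6, h7⟩ hcon
  obtain ⟨m₁, K₀, 𝒢, σ, y₀, hm₁, hK₀, h𝒢f, h𝒢p, hσ, hy₀, hσy⟩ := hex
  obtain ⟨t₀⟩ : Nonempty F := inferInstance
  have hsub : ∃ z, Function.Surjective (mfderiv 𝓘(ℂ, Cm n) 𝓘(ℂ, Cm p) f z) :=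
    ⟨i t₀, hi.submersive t₀⟩
  obtain ⟨l, K, hl, hK⟩ := exists_denom hΔ m₁
  obtain ⟨τ, hτ, hval⟩ := hT n p X Z Y j hj f hf hsub 𝒢 h𝒢f h𝒢p Δ hΔ m₁ hm₁ K₀ hK₀ σ hσ l hl K hK
  obtain ⟨κ, hκ, hsec⟩ := hσ.mero
  have hfin : {G | κ G ≠ 0}.Finite := h𝒢f.subset fun G hG => hκ G hG
  have hod := open_dense_ne (E₀ := Cm p) (F := Y) (m := m₁) (κ := κ) hfin
    (fun G hG => h𝒢p G (hκ G hG)) hsec ⟨y₀, fun G hG => hy₀ G (hκ G hG), hσy⟩
  set O : Set Y := {y | (∀ G, κ G ≠ 0 → y ∉ G) ∧ σ y ≠ 0} ∩ (⋃₀ 𝒢)ᶜ with hO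
  have hclosed : IsClosed (⋃₀ 𝒢) := by
    rw [sUnion_eq_biUnion]
    exact h𝒢f.isClosed_biUnion fun G hG => (h𝒢p G hG).1
  have hdense : Dense (⋃₀ 𝒢)ᶜ := by
    have h1 : (⋃₀ 𝒢)ᶜ = {y : Y | ∀ G, G ∈ 𝒢 → y ∉ G} := by
      ext y
      simp [mem_sUnion]
    rw [h1]
    have h2 := isOpen_off (E₀ := Cm p) (F := Y) (κ := fun G => if G ∈ 𝒢 then 1 else 0)
      (by
        refine h𝒢f.subset fun G hG => ?_
        by_contra h
        exact hG (if_neg h)) (fun G hG => by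
        refine h𝒢p G ?_
        by_contra h
        exact hG (if_neg h))
    refine h2.2.mono ?_
    intro y hy G hG
    exact hy G (by simp [hG])
  have hOo : IsOpen O := hod.1.inter hclosed.isOpen_compl
  have hOd : Dense O := hod.2.inter_of_isOpen_left hdense hod.1
  obtain ⟨βF, h1, h2, h3⟩ := goodFix_of_rat (kerPart hB) clos dens hn hj hf hΔ
    (Nat.mul_pos hm₁ hl) hK hτ hOo hOd (fun z hz hzD => ⟨σ (f z) ^ l, pow_ne_zero _ hz.1.2,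
      fun e he I => hval e z he hz.2 hzD I⟩) hi hβR hrat
  exact hmain n p d hn X Z Y F χ hχ Δ Δ₀ hΔ hle t ht0 ht1 m N hm k hk S hS m' N' hm' k' hk'
    S' hS' j hj f hf i hi hne ν hν β hβ hgood 0 h2 βF h1 h3

end Vale.Agent.P281.H716.LC
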